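import Vale.Agent.P355.H516.Mom

/-! A reflective checker for identities between moments.

A weight `w : Fin 6 → ℤ` (with small entries) is coded by the natural number
`∑ i, (w i + 16) * 32 ^ i`.  A polynomial in the moments is a list of terms
(integer coefficient, list of codes).  A certificate is a list of rows; the row
`(k, l, u, v)` stands for `k` times the product of the moments in `l` times Parseval's relation
`mom (u + v) - ∑ m, mom (u - e_m) * mom (v + e_m)`.
-/

namespace Vale.Agent.P355.H516

open Finset ComplexConjugate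

/-- the code of the weight `0`. -/
def c0 : ℕ := 16 * (1 + 32 + 32 ^ 2 + 32 ^ 3 + 32 ^ 4 + 32 ^ 5)

/-- the `i`-th digit. -/
def dg (c i : ℕ) : ℕ := c / 32 ^ i % 32

/-- the weight with code `c`. -/
def dec (c : ℕ) : Fin 6 → ℤ := fun i => (dg c i : ℤ) - 16

/-- a term: sorting key, coefficient, monomial (list of codes). -/
structure Term where
  key : ℕ
  coef : ℤ
  mon : List ℕ

/-- insertion into a sorted list. -/
def ins (a : ℕ) : List ℕ → List ℕ
  | [] => [a]
  | b :: l => if a ≤ b then a :: b :: l else b :: ins a l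

/-- multiplication of a monomial by an atom; the atom `c0` is `1`. -/
def mulAtom (a : ℕ) (l : List ℕ) : List ℕ := if a = c0 then l else ins a l

/-- the atoms that vanish: `e_i - e_j`, `i ≠ j`. -/
def zeroAtoms : List ℕ :=
  (List.range 6).flatMap fun i => (List.range 6).filterMap fun j =>
    if i = j then none else some (c0 + 32 ^ i - 32 ^ j)

/-- membership in `zeroAtoms`. -/
def isZ (a : ℕ) : Bool := zeroAtoms.elem a

/-- the sorting key of a monomial. -/
def mkKey (l : List ℕ) : ℕ := l.foldl (fun k a => k * 1073741824 + a) 1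

/-- make a term. -/
def mkTerm (k : ℤ) (l : List ℕ) : Term := ⟨mkKey l, k, l⟩

/-- merge two lists of terms. -/
def merge : ℕ → List Term → List Term → List Term
  | 0, p, q => p ++ q
  | _ + 1, [], q => q
  | _ + 1, p, [] => p
  | n + 1, a :: p, b :: q =>
    if a.key < b.key then a :: merge n p (b :: q)
    else if b.key < a.key then b :: merge n (a :: p) q
    else if a.mon = b.mon then
      (if a.coef + b.coef = 0 then merge n p q
        else ⟨a.key, a.coef + b.coef, a.mon⟩ :: merge n p q)
    else a :: b :: merge n p q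

/-- merge neighbours. -/
def pairUp : List (List Term) → List (List Term)
  | a :: b :: t => merge (a.length + b.length) a b :: pairUp t
  | l => l

/-- merge all the lists. -/
def mergeAll : ℕ → List (List Term) → List Term
  | 0, l => l.flatten
  | _ + 1, [] => []
  | _ + 1, [a] => a
  | n + 1, l => mergeAll n (pairUp l)

/-- a row of a certificate. -/
structure Row where
  coef : ℤ
  mult : List ℕ
  u : ℕ
  v : ℕ

/-- the arithmetic of codes is correct for the row `(u, v)`. -/
def chkRow (u v : ℕ) : Bool :=
  (List.range 6).all fun i =>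
    (dg (u + v - c0) i + 16 == dg u i + dg v i) &&
    (List.range 6).all fun m =>
      (dg (u - 32 ^ m) i + (if i = m then 1 else 0) == dg u i) &&
        (dg (v + 32 ^ m) i == dg v i + (if i = m then 1 else 0))

/-- the product term of the row for the index `m`. -/
def rowTerm (r : Row) (m : ℕ) : List (List Term) :=
  if isZ (r.u - 32 ^ m) || isZ (r.v + 32 ^ m) then []
  else [[mkTerm (-r.coef) (mulAtom (r.u - 32 ^ m) (mulAtom (r.v + 32 ^ m) r.mult))]]

/-- all the terms of the row. -/
def rowTerms (r : Row) : List (List Term) :=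
  (if isZ (r.u + r.v - c0) then [] else [[mkTerm r.coef (mulAtom (r.u + r.v - c0) r.mult)]]) ++
    (rowTerm r 0 ++ (rowTerm r 1 ++ (rowTerm r 2 ++ (rowTerm r 3 ++ (rowTerm r 4 ++ rowTerm r 5)))))

/-- the certificate proves that `target` is zero. -/
def check (cert : List Row) (target : List (ℤ × List ℕ)) : Bool :=
  cert.all (fun r => chkRow r.u r.v) &&
    (mergeAll 40 ((cert.flatMap rowTerms) ++ target.map fun t => [mkTerm (-t.1) t.2])).isEmpty

/-! ### Semantics -/

/-- value of a monomial. -/
noncomputable def mval (h : Fin 6 → Fin 6 → ℂ) (l : List ℕ) : ℂ :=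
  (l.map fun a => mom h (dec a)).prod

/-- value of a list of terms. -/
noncomputable def pval (h : Fin 6 → Fin 6 → ℂ) (p : List Term) : ℂ :=
  (p.map fun t => (t.coef : ℂ) * mval h t.mon).sum

/-- value of a list of lists of terms. -/
noncomputable def ppval (h : Fin 6 → Fin 6 → ℂ) (p : List (List Term)) : ℂ :=
  (p.map fun q => pval h q).sum

/-- value of a target. -/
noncomputable def tval (h : Fin 6 → Fin 6 → ℂ) (p : List (ℤ × List ℕ)) : ℂ :=
  (p.map fun t => (t.1 : ℂ) * mval h t.2).sum

variable {h : Fin 6 → Fin 6 → ℂ}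

theorem mval_cons (a : ℕ) (l : List ℕ) : mval h (a :: l) = mom h (dec a) * mval h l := by
  simp [mval]

theorem pval_nil : pval h [] = 0 := by simp [pval]

theorem pval_cons (t : Term) (p : List Term) :
    pval h (t :: p) = (t.coef : ℂ) * mval h t.mon + pval h p := by simp [pval]

theorem pval_append (p q : List Term) : pval h (p ++ q) = pval h p + pval h q := by
  simp [pval]

theorem ppval_nil : ppval h [] = 0 := by simp [ppval]

theorem ppval_cons (q : List Term) (p : List (List Term)) :
    ppval h (q :: p) = pval h q + ppval h p := by simp [ppval]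

theorem ppval_append (p q : List (List Term)) : ppval h (p ++ q) = ppval h p + ppval h q := by
  simp [ppval]

theorem mval_ins (a : ℕ) (l : List ℕ) : mval h (ins a l) = mom h (dec a) * mval h l := by
  induction l with
  | nil => simp [ins, mval]
  | cons b l ih =>
    unfold ins
    split_ifs
    · rw [mval_cons]
    · rw [mval_cons, ih, mval_cons]; ring

theorem dec_c0 : dec c0 = 0 := by
  funext i
  fin_cases i <;> rfl

theorem mval_mulAtom (a : ℕ) (l : List ℕ) : mval h (mulAtom a l) = mom h (dec a) * mval h l := by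
  unfold mulAtom
  split_ifs with ha
  · rw [ha, dec_c0, mom_zero, one_mul]
  · exact mval_ins a l

theorem dec_zero_atom : ∀ a ∈ zeroAtoms, ∃ i j : Fin 6, i ≠ j ∧ dec a = ei i - ei j := by
  decide

theorem isZ_val (H : Had h) {a : ℕ} (ha : isZ a = true) : mom h (dec a) = 0 := by
  have hm : a ∈ zeroAtoms := List.elem_iff.mp ha
  obtain ⟨i, j, hij, he⟩ := dec_zero_atom a hm
  rw [he, mom_ei_sub_ei H hij]

theorem pval_merge : ∀ (n : ℕ) (p q : List Term), pval h (merge n p q) = pval h p + pval h q
  | 0, p, q => by rw [merge, pval_append]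
  | _ + 1, [], q => by rw [merge, pval_nil, zero_add]
  | _ + 1, a :: p, [] => by rw [merge, pval_nil, add_zero]; simp
  | n + 1, a :: p, b :: q => by
    rw [merge]
    split_ifs with h1 h2 h3 h4
    · rw [pval_cons, pval_merge n, pval_cons a p]; ring
    · rw [pval_cons, pval_merge n, pval_cons b q]; ring
    · rw [pval_merge n, pval_cons, pval_cons, h3]
      have : (a.coef : ℂ) + (b.coef : ℂ) = 0 := by exact_mod_cast h4
      linear_combination (-(mval h b.mon)) * this
    · rw [pval_cons, pval_merge n, pval_cons, pval_cons]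
      simp only []
      rw [h3]; push_cast; ring
    · rw [pval_cons, pval_cons, pval_merge n, pval_cons, pval_cons]; ring

theorem ppval_pairUp : ∀ l : List (List Term), ppval h (pairUp l) = ppval h l
  | [] => by rw [pairUp]; simp
  | [a] => by rw [pairUp]; simp
  | a :: b :: t => by
    rw [pairUp, ppval_cons, ppval_cons, ppval_cons, pval_merge, ppval_pairUp t]; ring

theorem pval_mergeAll : ∀ (n : ℕ) (l : List (List Term)), pval h (mergeAll n l) = ppval h l
  | 0, l => by
    rw [mergeAll]
    induction l with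
    | nil => simp [pval, ppval]
    | cons a t ih => rw [List.flatten_cons, pval_append, ih, ppval_cons]
  | _ + 1, [] => by rw [mergeAll, pval_nil, ppval_nil]
  | _ + 1, [a] => by rw [mergeAll, ppval_cons, ppval_nil, add_zero]
  | n + 1, a :: b :: t => by
    have e : mergeAll (n + 1) (a :: b :: t) = mergeAll n (pairUp (a :: b :: t)) := rfl
    rw [e, pval_mergeAll n, ppval_pairUp]

theorem chkRow_spec {u v : ℕ} (hc : chkRow u v = true) :
    dec (u + v - c0) = dec u + dec v ∧
      ∀ m : Fin 6, dec (u - 32 ^ (m : ℕ)) = dec u - ei m ∧ dec (v + 32 ^ (m : ℕ)) = dec v + ei m := by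
  unfold chkRow at hc
  rw [List.all_eq_true] at hc
  have h1 : ∀ i : Fin 6, dg (u + v - c0) i + 16 = dg u i + dg v i ∧
      ∀ m : Fin 6, dg (u - 32 ^ (m : ℕ)) i + (if (i : ℕ) = m then 1 else 0) = dg u i ∧
        dg (v + 32 ^ (m : ℕ)) i = dg v i + (if (i : ℕ) = m then 1 else 0) := by
    intro i
    have := hc i (List.mem_range.mpr i.2)
    rw [Bool.and_eq_true, beq_iff_eq, List.all_eq_true] at this
    refine ⟨this.1, fun m => ?_⟩
    have h2 := this.2 m (List.mem_range.mpr m.2)
    rw [Bool.and_eq_true, beq_iff_eq, beq_iff_eq] at h2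
    exact h2
  refine ⟨?_, fun m => ⟨?_, ?_⟩⟩
  · funext i
    have := (h1 i).1
    simp only [dec, Pi.add_apply]
    omega
  · funext i
    have := ((h1 i).2 m).1
    simp only [dec, Pi.sub_apply, ei, Pi.single_apply]
    by_cases him : i = m
    · subst him; simp at this ⊢; omega
    · have h3 : (i : ℕ) ≠ m := fun hh => him (Fin.ext hh)
      simp only [h3, him, if_false] at this ⊢; omega
  · funext i
    have := ((h1 i).2 m).2
    simp only [dec, Pi.add_apply, ei, Pi.single_apply]
    by_cases him : i = m
    · subst him; simp at this ⊢; omega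
    · have h3 : (i : ℕ) ≠ m := fun hh => him (Fin.ext hh)
      simp only [h3, him, if_false] at this ⊢; omega

theorem ppval_rowTerm (H : Had h) (r : Row) (m : ℕ) :
    ppval h (rowTerm r m) =
      -(r.coef : ℂ) * mval h r.mult * (mom h (dec (r.u - 32 ^ m)) * mom h (dec (r.v + 32 ^ m))) := by
  unfold rowTerm
  split_ifs with hz
  · rw [ppval_nil]
    rcases Bool.or_eq_true_iff.mp hz with hz | hz
    · rw [isZ_val H hz]; ring
    · rw [isZ_val H hz]; ring
  · rw [ppval_cons, ppval_nil, pval_cons, pval_nil, add_zero, add_zero]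
    simp only [mkTerm]
    rw [mval_mulAtom, mval_mulAtom]
    push_cast
    ring

theorem ppval_rowTerms (H : Had h) (r : Row) (hc : chkRow r.u r.v = true) :
    ppval h (rowTerms r) = 0 := by
  obtain ⟨h1, h2⟩ := chkRow_spec hc
  unfold rowTerms
  rw [ppval_append, ppval_append, ppval_append, ppval_append, ppval_append, ppval_append]
  have hp := parseval H (dec r.u) (dec r.v)
  rw [Fin.sum_univ_six] at hp
  have e0 := ppval_rowTerm H r 0
  have e1 := ppval_rowTerm H r 1
  have e2 := ppval_rowTerm H r 2
  have e3 := ppval_rowTerm H r 3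
  have e4 := ppval_rowTerm H r 4
  have e5 := ppval_rowTerm H r 5
  have d0 : dec (r.u - 32 ^ 0) = dec r.u - ei 0 ∧ dec (r.v + 32 ^ 0) = dec r.v + ei 0 := h2 0
  have d1 : dec (r.u - 32 ^ 1) = dec r.u - ei 1 ∧ dec (r.v + 32 ^ 1) = dec r.v + ei 1 := h2 1
  have d2 : dec (r.u - 32 ^ 2) = dec r.u - ei 2 ∧ dec (r.v + 32 ^ 2) = dec r.v + ei 2 := h2 2
  have d3 : dec (r.u - 32 ^ 3) = dec r.u - ei 3 ∧ dec (r.v + 32 ^ 3) = dec r.v + ei 3 := h2 3
  have d4 : dec (r.u - 32 ^ 4) = dec r.u - ei 4 ∧ dec (r.v + 32 ^ 4) = dec r.v + ei 4 := h2 4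
  have d5 : dec (r.u - 32 ^ 5) = dec r.u - ei 5 ∧ dec (r.v + 32 ^ 5) = dec r.v + ei 5 := h2 5
  rw [e0, e1, e2, e3, e4, e5]
  have first : ppval h (if isZ (r.u + r.v - c0) then [] else
      [[mkTerm r.coef (mulAtom (r.u + r.v - c0) r.mult)]])
      = (r.coef : ℂ) * mval h r.mult * mom h (dec (r.u + r.v - c0)) := by
    split_ifs with hz
    · rw [ppval_nil, isZ_val H hz, mul_zero]
    · rw [ppval_cons, ppval_nil, pval_cons, pval_nil, add_zero, add_zero]
      simp only [mkTerm]
      rw [mval_mulAtom]
      ring
  rw [first, h1, hp]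
  rw [← d0.1, ← d0.2, ← d1.1, ← d1.2, ← d2.1, ← d2.2, ← d3.1, ← d3.2, ← d4.1, ← d4.2,
    ← d5.1, ← d5.2]
  ring

theorem ppval_flatMap (H : Had h) : ∀ cert : List Row,
    (∀ r ∈ cert, chkRow r.u r.v = true) → ppval h (cert.flatMap rowTerms) = 0
  | [], _ => by simp [ppval]
  | r :: t, hc => by
    rw [List.flatMap_cons, ppval_append, ppval_rowTerms H r (hc r (by simp)),
      ppval_flatMap H t fun q hq => hc q (by simp [hq]), add_zero]

theorem ppval_target : ∀ target : List (ℤ × List ℕ),
    ppval h (target.map fun t => [mkTerm (-t.1) t.2]) = -tval h target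
  | [] => by simp [ppval, tval]
  | t :: l => by
    rw [List.map_cons, ppval_cons, ppval_target l, pval_cons, pval_nil]
    simp only [mkTerm, tval, List.map_cons, List.sum_cons]
    push_cast
    ring

/-- Soundness of the checker. -/
theorem tval_eq_zero (H : Had h) (cert : List Row) (target : List (ℤ × List ℕ))
    (hc : check cert target = true) : tval h target = 0 := by
  unfold check at hc
  rw [Bool.and_eq_true, List.all_eq_true] at hc
  obtain ⟨h1, h2⟩ := hc
  have h3 : mergeAll 40 ((cert.flatMap rowTerms) ++ target.map fun t => [mkTerm (-t.1) t.2]) = [] :=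
    List.isEmpty_iff.mp h2
  have h4 := pval_mergeAll (h := h) 40
    ((cert.flatMap rowTerms) ++ target.map fun t => [mkTerm (-t.1) t.2])
  rw [h3, pval_nil, ppval_append, ppval_flatMap H cert h1, ppval_target, zero_add] at h4
  have := h4.symm
  exact neg_eq_zero.mp this

end Vale.Agent.P355.H516
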